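import Vale.Agent.P181.H583.HWDef

set_option autoImplicit false

/-!
# P181, GN, row Q4: two injectivity lemmas

`top_zero`: a polynomial killed by the row operators `rowOp 0 i` whose component with a pure
distinguished column vanishes is zero. `one_zero`: a symmetric translation invariant polynomial
without monomials avoiding columns of degree one is zero.
-/

open MvPolynomial

namespace Vale.Agent.P181.GN.H312

open Vale.Agent.P181.T4

/-- The coefficients of a row operator. -/
lemma coeff_rowOp {n : ℕ} {σ : Type} [Fintype σ] [DecidableEq σ] (s i : Fin n)
    (f : MvPolynomial (Fin n × σ) ℂ) (u : Fin n × σ →₀ ℕ) :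
    coeff u (rowOp s i f) = ∑ j, if u (s, j) ≠ 0 then
      coeff (u - Finsupp.single (s, j) 1 + Finsupp.single (i, j) 1) f *
        ((u - Finsupp.single (s, j) 1 : Fin n × σ →₀ ℕ) (i, j) + 1) else 0 := by
  classical
  rw [rowOp_apply, coeff_sum]
  apply Finset.sum_congr rfl
  intro j _
  rw [coeff_X_mul', coeff_pderiv]
  by_cases h : u (s, j) = 0
  · rw [if_neg (by simpa using h), if_neg (by simpa using h)]
  · rw [if_pos (by simpa using h), if_pos h]

/-- **Top component in a distinguished column.** -/
theorem top_zero {n : ℕ} {σ : Type} [Fintype σ] [DecidableEq σ] (c : σ)
    (f : MvPolynomial (Fin (n + 1) × σ) ℂ) (h : ∀ i : Fin n, rowOp 0 i.succ f = 0)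
    (h0 : ∀ v : Fin (n + 1) × σ →₀ ℕ, (∀ i : Fin n, v (i.succ, c) = 0) → coeff v f = 0) :
    f = 0 := by
  classical
  have main : ∀ (D : ℕ) (v : Fin (n + 1) × σ →₀ ℕ), ∑ i : Fin n, v (i.succ, c) = D →
      coeff v f = 0 := by
    intro D
    induction D with
    | zero =>
      intro v hv
      apply h0
      intro i
      exact (Finset.sum_eq_zero_iff.1 hv) i (Finset.mem_univ i)
    | succ D ih =>
      intro v hv
      obtain ⟨i, hi⟩ : ∃ i : Fin n, v (i.succ, c) ≠ 0 := by
        by_contra hcon
        push Not at hcon
        rw [Finset.sum_eq_zero (fun i _ => hcon i)] at hv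
        omega
      let w : Fin (n + 1) × σ →₀ ℕ := v - Finsupp.single (i.succ, c) 1
      let u : Fin (n + 1) × σ →₀ ℕ := w + Finsupp.single (0, c) 1
      have hw : w + Finsupp.single (i.succ, c) 1 = v := by
        ext p
        simp only [w, Finsupp.add_apply, Finsupp.tsub_apply]
        by_cases hp : p = (i.succ, c)
        · subst hp
          rw [Finsupp.single_eq_same]
          omega
        · rw [Finsupp.single_eq_of_ne hp]
          omega
      have h1 : coeff u (rowOp 0 i.succ f) = 0 := by rw [h i, coeff_zero]
      rw [coeff_rowOp, Finset.sum_eq_single c] at h1
      · have hu : u (0, c) ≠ 0 := by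
          simp only [u, Finsupp.add_apply, Finsupp.single_eq_same]
          omega
        have huw : u - Finsupp.single (0, c) 1 = w := by
          simp only [u]
          exact add_tsub_cancel_right _ _
        rw [if_pos hu, huw, hw] at h1
        refine (mul_eq_zero.1 h1).resolve_right ?_
        exact Nat.cast_add_one_ne_zero _
      · intro j _ hj
        by_cases huj : u (0, j) = 0
        · rw [if_neg (by simpa using huj)]
        · rw [if_pos huj, ih, zero_mul]
          have h2 : ∀ k : Fin n, (u - Finsupp.single (0, j) 1 +
              Finsupp.single (i.succ, j) 1 : Fin (n + 1) × σ →₀ ℕ) (k.succ, c) =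
              w (k.succ, c) := by
            intro k
            simp only [u, Finsupp.add_apply, Finsupp.tsub_apply]
            have e1 : ((0 : Fin (n + 1)), c) ≠ (k.succ, c) := by
              intro e
              exact (Fin.succ_ne_zero k) (congrArg Prod.fst e).symm
            have e2 : ((0 : Fin (n + 1)), j) ≠ (k.succ, c) := by
              intro e
              exact (Fin.succ_ne_zero k) (congrArg Prod.fst e).symm
            have e3 : (i.succ, j) ≠ (k.succ, c) := by
              intro e
              exact hj (congrArg Prod.snd e)
            rw [Finsupp.single_eq_of_ne e1.symm, Finsupp.single_eq_of_ne e2.symm,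
              Finsupp.single_eq_of_ne e3.symm]
            omega
          rw [Finset.sum_congr rfl (fun k _ => h2 k)]
          have h3 : ∑ k : Fin n, v (k.succ, c) = (∑ k : Fin n, w (k.succ, c)) + 1 := by
            rw [← hw]
            simp only [Finsupp.add_apply]
            rw [Finset.sum_add_distrib]
            congr 1
            rw [Finset.sum_eq_single i]
            · rw [Finsupp.single_eq_same]
            · intro k _ hk
              apply Finsupp.single_eq_of_ne
              intro e
              exact hk (Fin.succ_injective _ (congrArg Prod.fst e))
            · intro hcon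
              exact absurd (Finset.mem_univ _) hcon
          omega
      · intro hcon
        exact absurd (Finset.mem_univ _) hcon
  ext v
  rw [main _ v rfl, coeff_zero]

/-- The degree of a column. -/
def cs {n : ℕ} {σ : Type} (v : Fin n × σ →₀ ℕ) (j : σ) : ℕ := ∑ i, v (i, j)

/-- **Columns of degree one.** -/
theorem one_zero {n : ℕ} {σ : Type} [Fintype σ] [DecidableEq σ]
    (f : MvPolynomial (Fin n × σ) ℂ)
    (hs : ∀ e : Equiv.Perm σ, rename (fun p : Fin n × σ => (p.1, e p.2)) f = f)
    (ht : ∀ i, ∑ j, pderiv (i, j) f = 0)
    (h0 : ∀ v : Fin n × σ →₀ ℕ, (∀ j, cs v j ≠ 1) → coeff v f = 0) : f = 0 := by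
  classical
  have hsw : ∀ (e : Equiv.Perm σ) (v : Fin n × σ →₀ ℕ),
      coeff (v.mapDomain (fun p : Fin n × σ => (p.1, e p.2))) f = coeff v f := by
    intro e v
    have hinj : Function.Injective (fun p : Fin n × σ => (p.1, e p.2)) := by
      intro p q hpq
      simp only [Prod.mk.injEq] at hpq
      exact Prod.ext hpq.1 (e.injective hpq.2)
    conv_lhs => rw [← hs e]
    exact coeff_rename_mapDomain _ hinj _ _
  have main : ∀ (s : ℕ) (v : Fin n × σ →₀ ℕ),
      (Finset.univ.filter (fun j => cs v j = 1)).card = s → coeff v f = 0 := by
    intro s
    induction s using Nat.strong_induction_on with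
    | _ s ih =>
      intro v hv
      by_cases hall : ∀ j, cs v j ≠ 1
      · exact h0 v hall
      push Not at hall
      obtain ⟨c, hc⟩ := hall
      obtain ⟨i, hi⟩ : ∃ i, v (i, c) ≠ 0 := by
        by_contra hcon
        push Not at hcon
        unfold cs at hc
        rw [Finset.sum_eq_zero (fun i _ => hcon i)] at hc
        omega
      let w : Fin n × σ →₀ ℕ := v - Finsupp.single (i, c) 1
      have hw : w + Finsupp.single (i, c) 1 = v := by
        ext p
        simp only [w, Finsupp.add_apply, Finsupp.tsub_apply]
        by_cases hp : p = (i, c)
        · subst hp
          rw [Finsupp.single_eq_same]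
          omega
        · rw [Finsupp.single_eq_of_ne hp]
          omega
      have hcsadd : ∀ j j', cs (w + Finsupp.single (i, j) 1) j' = cs w j' +
          if j' = j then 1 else 0 := by
        intro j j'
        unfold cs
        simp only [Finsupp.add_apply]
        rw [Finset.sum_add_distrib]
        congr 1
        by_cases hj : j' = j
        · subst hj
          rw [if_pos rfl, Finset.sum_eq_single i]
          · rw [Finsupp.single_eq_same]
          · intro k _ hk
            apply Finsupp.single_eq_of_ne
            intro e
            exact hk (congrArg Prod.fst e)
          · intro hcon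
            exact absurd (Finset.mem_univ _) hcon
        · rw [if_neg hj]
          apply Finset.sum_eq_zero
          intro k _
          apply Finsupp.single_eq_of_ne
          intro e
          exact hj (congrArg Prod.snd e)
      have hvc : ∀ j', cs v j' = cs w j' + if j' = c then 1 else 0 := by
        intro j'
        rw [← hw]
        exact hcsadd c j'
      have hwc : cs w c = 0 := by
        have := hvc c
        rw [if_pos rfl, hc] at this
        omega
      have h1 : coeff w (∑ j, pderiv (i, j) f) = 0 := by rw [ht i, coeff_zero]
      rw [coeff_sum] at h1
      have h2 : ∀ j, coeff w (pderiv (i, j) f) = if cs w j = 0 then coeff v f else 0 := by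
        intro j
        rw [coeff_pderiv]
        by_cases hj : cs w j = 0
        · rw [if_pos hj]
          have hz : ∀ k, w (k, j) = 0 := fun k =>
            (Finset.sum_eq_zero_iff.1 hj) k (Finset.mem_univ k)
          have hz' : ∀ k, w (k, c) = 0 := fun k =>
            (Finset.sum_eq_zero_iff.1 hwc) k (Finset.mem_univ k)
          rw [hz i, Nat.cast_zero, zero_add, mul_one]
          rw [← hsw (Equiv.swap j c) (w + Finsupp.single (i, j) 1)]
          congr 1
          rw [Finsupp.mapDomain_add, Finsupp.mapDomain_single]
          simp only [Equiv.swap_apply_left]
          rw [← hw]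
          congr 1
          have hfix : ∀ p ∈ w.support, ((p.1, Equiv.swap j c p.2) : Fin n × σ) = p := by
            intro p hp
            have hp' := Finsupp.mem_support_iff.1 hp
            have e1 : p.2 ≠ j := by
              intro e
              apply hp'
              have := hz p.1
              rwa [← e] at this
            have e2 : p.2 ≠ c := by
              intro e
              apply hp'
              have := hz' p.1
              rwa [← e] at this
            rw [Equiv.swap_apply_of_ne_of_ne e1 e2]
          rw [Finsupp.mapDomain_congr (g := id) (fun p hp => hfix p hp), Finsupp.mapDomain_id]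
        · rw [if_neg hj]
          have hlt : (Finset.univ.filter
              (fun j' => cs (w + Finsupp.single (i, j) 1) j' = 1)).card < s := by
            rw [← hv]
            apply Finset.card_lt_card
            rw [Finset.ssubset_iff_of_subset]
            · refine ⟨c, ?_, ?_⟩
              · simp [hc]
              · simp only [Finset.mem_filter, Finset.mem_univ, true_and]
                rw [hcsadd, hwc]
                by_cases hcj : c = j
                · subst hcj
                  exact absurd hwc hj
                · rw [if_neg hcj]
                  omega
            · intro j' hj'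
              simp only [Finset.mem_filter, Finset.mem_univ, true_and] at hj' ⊢
              rw [hcsadd] at hj'
              rw [hvc]
              by_cases h3 : j' = j
              · rw [if_pos h3] at hj'
                exfalso
                apply hj
                rw [← h3]
                omega
              · rw [if_neg h3] at hj'
                by_cases h4 : j' = c
                · rw [h4, hwc] at hj'
                  omega
                · rw [if_neg h4]
                  exact hj'
          rw [ih _ hlt _ rfl, zero_mul]
      rw [Finset.sum_congr rfl (fun j _ => h2 j), Finset.sum_ite, Finset.sum_const_zero, add_zero,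
        Finset.sum_const, nsmul_eq_mul] at h1
      refine (mul_eq_zero.1 h1).resolve_left (Nat.cast_ne_zero.2 ?_)
      apply Finset.card_ne_zero_of_mem (a := c)
      simp [hwc]
  ext v
  rw [main _ v rfl, coeff_zero]

end Vale.Agent.P181.GN.H312
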