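import Vale.Agent.P181.GN.Defs
import Vale.Agent.P181.GN.H312.Q4a
import Vale.Agent.P181.H280.Form

set_option autoImplicit false

/-!
# P181, GN, row Q4
-/

open MvPolynomial

namespace Vale.Agent.P181.GN.H312

open Vale.Agent.P181.T4 (HW rowOp rowOp_apply)
open Vale.Agent.P181.TW (PX mem_PX NX)

variable {k n : ℕ}

/-! ### column degrees -/

lemma cs_add {m : ℕ} {σ : Type} (u v : Fin m × σ →₀ ℕ) (j : σ) :
    cs (u + v) j = cs u j + cs v j := by
  unfold cs
  rw [← Finset.sum_add_distrib]
  rfl

lemma cs_single {m : ℕ} {σ : Type} [DecidableEq σ] (i : Fin m) (j j' : σ) :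
    cs (Finsupp.single (i, j) 1 : Fin m × σ →₀ ℕ) j' = if j' = j then 1 else 0 := by
  unfold cs
  by_cases hj : j' = j
  · subst hj
    rw [if_pos rfl, Finset.sum_eq_single i]
    · rw [Finsupp.single_eq_same]
    · intro k _ hk
      apply Finsupp.single_eq_of_ne
      intro e
      exact hk (congrArg Prod.fst e)
    · intro hcon
      exact absurd (Finset.mem_univ _) hcon
  · rw [if_neg hj]
    apply Finset.sum_eq_zero
    intro k _
    apply Finsupp.single_eq_of_ne
    intro e
    exact hj (congrArg Prod.snd e)

lemma sub_add_single {m : ℕ} {σ : Type} (w : Fin m × σ →₀ ℕ) (p : Fin m × σ) (h : w p ≠ 0) :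
    w - Finsupp.single p 1 + Finsupp.single p 1 = w := by
  classical
  ext q
  simp only [Finsupp.add_apply, Finsupp.tsub_apply]
  by_cases hq : q = p
  · subst hq
    rw [Finsupp.single_eq_same]
    omega
  · rw [Finsupp.single_eq_of_ne hq]
    omega

/-- A unit moved in a column. -/
noncomputable def mv {m : ℕ} {σ : Type} (w : Fin m × σ →₀ ℕ) (s i : Fin m) (j : σ) :
    Fin m × σ →₀ ℕ := w - Finsupp.single (i, j) 1 + Finsupp.single (s, j) 1

lemma cs_mv {m : ℕ} {σ : Type} [DecidableEq σ] (w : Fin m × σ →₀ ℕ) (s i : Fin m) (j j' : σ)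
    (h : w (i, j) ≠ 0) : cs (mv w s i j) j' = cs w j' := by
  have h1 : cs w j' = cs (w - Finsupp.single (i, j) 1 + Finsupp.single (i, j) 1) j' := by
    rw [sub_add_single w (i, j) h]
  rw [h1, mv, cs_add, cs_add, cs_single, cs_single]

lemma mv_apply_ne {m : ℕ} {σ : Type} (w : Fin m × σ →₀ ℕ) (s i i' : Fin m) (j j' : σ)
    (h : j' ≠ j) : mv w s i j (i', j') = w (i', j') := by
  classical
  unfold mv
  simp only [Finsupp.add_apply, Finsupp.tsub_apply]
  have e1 : (i', j') ≠ (i, j) := fun e => h (congrArg Prod.snd e)
  have e2 : (i', j') ≠ (s, j) := fun e => h (congrArg Prod.snd e)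
  rw [Finsupp.single_eq_of_ne e1, Finsupp.single_eq_of_ne e2]
  omega

lemma mv_apply {m : ℕ} {σ : Type} (w : Fin m × σ →₀ ℕ) (s i i' : Fin m) (j : σ) :
    mv w s i j (i', j) = w (i', j) - (if i' = i then 1 else 0) + if i' = s then 1 else 0 := by
  classical
  unfold mv
  simp only [Finsupp.add_apply, Finsupp.tsub_apply, Finsupp.single_apply, Prod.mk.injEq, and_true]
  congr 2
  · simp only [eq_comm]
  · simp only [eq_comm]

lemma rowOp_mon {m : ℕ} {σ : Type} [Fintype σ] (s i : Fin m) (w : Fin m × σ →₀ ℕ) :
    rowOp s i (monomial w (1 : ℂ)) = ∑ j, monomial (mv w s i j) (w (i, j) : ℂ) := by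
  rw [rowOp_apply]
  apply Finset.sum_congr rfl
  intro j _
  rw [pderiv_monomial, X, monomial_mul, one_mul, one_mul, add_comm]
  rfl

/-! ### letters -/

/-- The letter of a column. -/
def lt (w : Fin (k + 1) × Option (Fin n) →₀ ℕ) (j : Fin n) : Lt k :=
  (w (0, some j), fun i => w (i.succ, some j))

lemma sz_lt (w : Fin (k + 1) × Option (Fin n) →₀ ℕ) (j : Fin n) :
    sz (lt w j) = cs w (some j) := by
  unfold sz cs lt
  rw [Fin.sum_univ_succ]

/-- The variable of a column. -/
noncomputable def Yc (w : Fin (k + 1) × Option (Fin n) →₀ ℕ) (j : Fin n) : Po k :=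
  if cs w (some j) = 0 then 1 else X (lt w j)

/-- The content. -/
noncomputable def ct (w : Fin (k + 1) × Option (Fin n) →₀ ℕ) : Lt k →₀ ℕ :=
  ∑ j : Fin n, if cs w (some j) = 0 then 0 else Finsupp.single (lt w j) 1

lemma mon_ct (w : Fin (k + 1) × Option (Fin n) →₀ ℕ) :
    (monomial (ct w) 1 : Po k) = ∏ j, Yc w j := by
  unfold ct Yc
  rw [monomial_sum_one]
  apply Finset.prod_congr rfl
  intro j _
  by_cases h : cs w (some j) = 0
  · rw [if_pos h, if_pos h]
    rfl
  · rw [if_neg h, if_neg h]
    rfl

/-- The exponents which are kept. -/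
def good (w : Fin (k + 1) × Option (Fin n) →₀ ℕ) : Prop :=
  (∀ i : Fin k, w (i.succ, none) = 0) ∧ ∀ j : Fin n, cs w (some j) ≠ 1

open Classical in
/-- The letter polynomial. -/
noncomputable def L0 (k n : ℕ) : MvPolynomial (Fin (k + 1) × Option (Fin n)) ℂ →ₗ[ℂ] Po k :=
  (basisMonomials _ ℂ).constr ℂ fun w => if good w then monomial (ct w) 1 else 0

open Classical in
lemma L0_monomial (w : Fin (k + 1) × Option (Fin n) →₀ ℕ) (r : ℂ) :
    L0 k n (monomial w r) = if good w then monomial (ct w) r else 0 := by
  have h : monomial w r = r • basisMonomials (Fin (k + 1) × Option (Fin n)) ℂ w := by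
    rw [coe_basisMonomials, smul_monomial, smul_eq_mul, mul_one]
  rw [h, map_smul, L0, Module.Basis.constr_basis]
  by_cases hw : good w
  · rw [if_pos hw, if_pos hw, smul_monomial, smul_eq_mul, mul_one]
  · rw [if_neg hw, if_neg hw, smul_zero]

lemma good_of_mv {w : Fin (k + 1) × Option (Fin n) →₀ ℕ} {r i : Fin k} {j : Option (Fin n)}
    (h : w (i.succ, j) ≠ 0) (hg : good (mv w r.succ i.succ j)) : good w := by
  refine ⟨fun i' => ?_, fun j' => ?_⟩
  · rcases j with _ | j
    · have h1 := hg.1 r
      rw [mv_apply, if_pos rfl] at h1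
      omega
    · have h1 := hg.1 i'
      rwa [mv_apply_ne _ _ _ _ _ _ (by simp)] at h1
  · have h1 := hg.2 j'
    rwa [cs_mv _ _ _ _ _ h] at h1

lemma good_mv {w : Fin (k + 1) × Option (Fin n) →₀ ℕ} {r i : Fin k} {j : Fin n}
    (h : w (i.succ, some j) ≠ 0) (hg : good w) : good (mv w r.succ i.succ (some j)) := by
  refine ⟨fun i' => ?_, fun j' => ?_⟩
  · rw [mv_apply_ne _ _ _ _ _ _ (by simp)]
    exact hg.1 i'
  · rw [cs_mv _ _ _ _ _ h]
    exact hg.2 j'

lemma Yc_mv {w : Fin (k + 1) × Option (Fin n) →₀ ℕ} {r i : Fin k} {j : Fin n}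
    (h : w (i.succ, some j) ≠ 0) :
    Yc (mv w r.succ i.succ (some j)) = Function.update (Yc w) j
      (X ((lt w j).1, (lt w j).2 - Pi.single i 1 + Pi.single r 1)) := by
  classical
  funext j'
  by_cases hj : j' = j
  · subst hj
    rw [Function.update_self, Yc, cs_mv _ _ _ _ _ h, if_neg]
    · congr 1
      refine Prod.ext ?_ ?_
      · change mv w r.succ i.succ (some j') (0, some j') = w (0, some j')
        rw [mv_apply, if_neg (Fin.succ_ne_zero i).symm, if_neg (Fin.succ_ne_zero r).symm]
        omega
      · funext i'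
        change mv w r.succ i.succ (some j') (i'.succ, some j') =
          w (i'.succ, some j') - (Pi.single i 1 : Fin k → ℕ) i' + (Pi.single r 1 : Fin k → ℕ) i'
        rw [mv_apply]
        simp only [Fin.succ_inj, Pi.single_apply]
    · intro h0
      apply h
      exact (Finset.sum_eq_zero_iff.1 h0) i.succ (Finset.mem_univ _)
  · rw [Function.update_of_ne hj]
    unfold Yc
    rw [cs_mv _ _ _ _ _ h]
    have h1 : lt (mv w r.succ i.succ (some j)) j' = lt w j' := by
      refine Prod.ext ?_ ?_
      · exact mv_apply_ne _ _ _ _ _ _ (fun e => hj (Option.some_injective _ e))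
      · funext i'
        exact mv_apply_ne _ _ _ _ _ _ (fun e => hj (Option.some_injective _ e))
    rw [h1]

lemma L0_row (r i : Fin k) (f : MvPolynomial (Fin (k + 1) × Option (Fin n)) ℂ) :
    L0 k n (rowOp r.succ i.succ f) = EU r i (L0 k n f) := by
  classical
  have key : (L0 k n) ∘ₗ (rowOp r.succ i.succ) =
      (EU r i).toLinearMap ∘ₗ (L0 k n) := by
    apply (basisMonomials (Fin (k + 1) × Option (Fin n)) ℂ).ext
    intro w
    rw [coe_basisMonomials, LinearMap.comp_apply, LinearMap.comp_apply, rowOp_mon, map_sum,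
      L0_monomial]
    simp only [L0_monomial]
    rw [Fintype.sum_option]
    by_cases hw : good w
    · rw [if_pos hw, hw.1 i]
      have h0 : (if good (mv w r.succ i.succ none) then
          (monomial (ct (mv w r.succ i.succ none)) ((0 : ℕ) : ℂ) : Po k) else 0) = 0 := by
        split_ifs
        · rw [Nat.cast_zero, map_zero]
        · rfl
      rw [h0, zero_add, mon_ct]
      change _ = EU r i (∏ j, Yc w j)
      rw [Vale.Agent.P181.H280.deriv_prod]
      apply Finset.sum_congr rfl
      intro j _
      by_cases hj : w (i.succ, some j) = 0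
      · rw [hj, Nat.cast_zero]
        have h1 : (if good (mv w r.succ i.succ (some j)) then
            (monomial (ct (mv w r.succ i.succ (some j))) (0 : ℂ) : Po k) else 0) = 0 := by
          split_ifs
          · rw [map_zero]
          · rfl
        rw [h1]
        symm
        apply Finset.prod_eq_zero (Finset.mem_univ j)
        rw [Function.update_self, Yc]
        split_ifs
        · exact Derivation.map_one_eq_zero _
        · rw [EU, mkDerivation_X]
          change ((w (i.succ, some j) : ℕ) : ℂ) • _ = (0 : Po k)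
          rw [hj, Nat.cast_zero, zero_smul]
      · rw [if_pos (good_mv hj hw)]
        have h1 : (monomial (ct (mv w r.succ i.succ (some j))) ((w (i.succ, some j) : ℕ) : ℂ) :
            Po k) = ((w (i.succ, some j) : ℕ) : ℂ) •
              monomial (ct (mv w r.succ i.succ (some j))) 1 := by
          rw [smul_monomial, smul_eq_mul, mul_one]
        rw [h1, mon_ct, Yc_mv hj, Finset.prod_update_of_mem (Finset.mem_univ j),
          Finset.prod_update_of_mem (Finset.mem_univ j)]
        have h2 : EU r i (Yc w j) = ((w (i.succ, some j) : ℕ) : ℂ) •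
            (X ((lt w j).1, (lt w j).2 - Pi.single i 1 + Pi.single r 1) : Po k) := by
          have h3 : cs w (some j) ≠ 0 := by
            intro h0
            exact hj ((Finset.sum_eq_zero_iff.1 h0) i.succ (Finset.mem_univ _))
          rw [Yc, if_neg h3, EU, mkDerivation_X]
          rfl
        rw [h2, smul_mul_assoc]
    · rw [if_neg hw]
      have h1 : ∀ j : Option (Fin n), (if good (mv w r.succ i.succ j) then
          (monomial (ct (mv w r.succ i.succ j)) ((w (i.succ, j) : ℕ) : ℂ) : Po k) else 0) = 0 := by
        intro j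
        by_cases hj : w (i.succ, j) = 0
        · rw [hj, Nat.cast_zero]
          split_ifs
          · rw [map_zero]
          · rfl
        · rw [if_neg]
          intro hg
          exact hw (good_of_mv hj hg)
      rw [h1, zero_add, Finset.sum_eq_zero (fun j _ => h1 (some j))]
      exact (map_zero (EU r i).toLinearMap).symm
  exact LinearMap.congr_fun key f

/-! ### contents -/

/-- The additive functionals on contents. -/
noncomputable def Fh (h : Lt k → ℕ) : (Lt k →₀ ℕ) →+ ℕ where
  toFun v := v.sum fun p c => c * h p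
  map_zero' := Finsupp.sum_zero_index
  map_add' a b := Finsupp.sum_add_index' (fun p => by simp) (fun p x y => by ring)

lemma Fh_single (h : Lt k → ℕ) (p : Lt k) : Fh h (Finsupp.single p 1) = h p := by
  change (Finsupp.single p 1).sum (fun p c => c * h p) = h p
  rw [Finsupp.sum_single_index (by simp), one_mul]

lemma Fh_ct (h : Lt k → ℕ) (w : Fin (k + 1) × Option (Fin n) →₀ ℕ) :
    Fh h (ct w) = ∑ j, if cs w (some j) = 0 then 0 else h (lt w j) := by
  unfold ct
  rw [map_sum]
  apply Finset.sum_congr rfl
  intro j _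
  by_cases hj : cs w (some j) = 0
  · rw [if_pos hj, if_pos hj, map_zero]
  · rw [if_neg hj, if_neg hj, Fh_single]

lemma entry_zero {w : Fin (k + 1) × Option (Fin n) →₀ ℕ} {j : Fin n}
    (h : cs w (some j) = 0) (i : Fin (k + 1)) : w (i, some j) = 0 :=
  (Finset.sum_eq_zero_iff.1 h) i (Finset.mem_univ i)

lemma xs_ct (w : Fin (k + 1) × Option (Fin n) →₀ ℕ) : xs (ct w) = ∑ j, w (0, some j) := by
  change Fh (fun p => p.1) (ct w) = _
  rw [Fh_ct]
  apply Finset.sum_congr rfl
  intro j _
  by_cases hj : cs w (some j) = 0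
  · rw [if_pos hj, entry_zero hj]
  · rw [if_neg hj]
    rfl

lemma us_ct (w : Fin (k + 1) × Option (Fin n) →₀ ℕ) (i : Fin k) :
    us (ct w) i = ∑ j, w (i.succ, some j) := by
  change Fh (fun p => p.2 i) (ct w) = _
  rw [Fh_ct]
  apply Finset.sum_congr rfl
  intro j _
  by_cases hj : cs w (some j) = 0
  · rw [if_pos hj, entry_zero hj]
  · rw [if_neg hj]
    rfl

lemma ct_apply (w : Fin (k + 1) × Option (Fin n) →₀ ℕ) (p : Lt k) (hp : sz p ≠ 0) :
    ct w p = (Finset.univ.filter fun j : Fin n => lt w j = p).card := by
  classical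
  rw [ct, Finsupp.finsetSum_apply, Finset.card_filter]
  apply Finset.sum_congr rfl
  intro j _
  by_cases hj : cs w (some j) = 0
  · rw [if_pos hj, if_neg]
    · rfl
    · intro e
      apply hp
      rw [← e, sz_lt, hj]
  · rw [if_neg hj, Finsupp.single_apply]

lemma exists_of_mem_ct {w : Fin (k + 1) × Option (Fin n) →₀ ℕ} {p : Lt k}
    (hp : p ∈ (ct w).support) : ∃ j, cs w (some j) ≠ 0 ∧ lt w j = p := by
  classical
  rw [Finsupp.mem_support_iff, ct, Finsupp.finsetSum_apply] at hp
  obtain ⟨j, _, hj⟩ := Finset.exists_ne_zero_of_sum_ne_zero hp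
  refine ⟨j, ?_, ?_⟩
  · intro h
    rw [if_pos h] at hj
    exact hj rfl
  · by_contra hne
    by_cases h : cs w (some j) = 0
    · rw [if_pos h] at hj
      exact hj rfl
    · rw [if_neg h, Finsupp.single_eq_of_ne (Ne.symm hne)] at hj
      exact hj rfl

/-! ### the map on `PX` -/

lemma coeff_L0 (f : MvPolynomial (Fin (k + 1) × Option (Fin n)) ℂ) (v : Lt k →₀ ℕ) :
    coeff v (L0 k n f) = ∑ w ∈ f.support, open Classical in
      if good w ∧ ct w = v then coeff w f else 0 := by
  classical
  conv_lhs => rw [← support_sum_monomial_coeff f]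
  rw [map_sum, coeff_sum]
  refine Finset.sum_congr rfl fun w _ => ?_
  rw [L0_monomial]
  by_cases hw : good w
  · rw [if_pos hw, coeff_monomial]
    by_cases hv : ct w = v
    · rw [if_pos hv, if_pos ⟨hw, hv⟩]
    · rw [if_neg hv, if_neg (fun h => hv h.2)]
  · rw [if_neg hw, if_neg (fun h => hw h.1), coeff_zero]

lemma L0_mem {y m0 : ℕ} {tau : Fin k → ℕ} {f : MvPolynomial (Fin (k + 1) × Option (Fin n)) ℂ}
    (hf : f ∈ PX (k + 1) y n (Fin.cons m0 tau)) : L0 k n f ∈ UH (gTT tau y m0) := by
  classical
  obtain ⟨hHW, hdeg, hsym, htr⟩ := mem_PX.1 hf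
  rw [mem_UH]
  refine ⟨fun v hv => ?_, fun r i hri => ?_⟩
  · rw [coeff_L0] at hv
    obtain ⟨w, _, hw⟩ := Finset.exists_ne_zero_of_sum_ne_zero hv
    have hgw : good w ∧ ct w = v := by
      by_contra hcon
      rw [if_neg hcon] at hw
      exact hw rfl
    rw [if_pos hgw] at hw
    obtain ⟨hg, rfl⟩ := hgw
    have hrow := hHW.1 w hw
    have hd := hdeg w hw
    rw [Fin.sum_univ_succ, Finset.sum_eq_zero (fun i _ => hg.1 i), add_zero] at hd
    refine ⟨fun p hp => ?_, ?_, fun i => ?_⟩
    · obtain ⟨j, hj, rfl⟩ := exists_of_mem_ct hp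
      rw [sz_lt]
      have h1 := hg.2 j
      omega
    · have h1 := hrow 0
      rw [Fintype.sum_option, hd, Fin.cons_zero] at h1
      rw [xs_ct]
      omega
    · have h1 := hrow i.succ
      rw [Fintype.sum_option, hg.1 i, Fin.cons_succ, zero_add] at h1
      rw [us_ct, h1]
  · rw [← L0_row, hHW.2 r.succ i.succ (Fin.succ_lt_succ_iff.2 hri), map_zero]

lemma coeff_eq {y : ℕ} {f : MvPolynomial (Fin (k + 1) × Option (Fin n)) ℂ}
    (hdeg : ∀ v, coeff v f ≠ 0 → ∑ i, v (i, none) = y)
    (hsym : ∀ e : Equiv.Perm (Fin n),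
        rename (fun p : Fin (k + 1) × Option (Fin n) => (p.1, p.2.map e)) f = f)
    {u w : Fin (k + 1) × Option (Fin n) →₀ ℕ} (hu : good u) (hw : good w)
    (hcu : coeff u f ≠ 0) (hcw : coeff w f ≠ 0) (h : ct u = ct w) :
    coeff u f = coeff w f := by
  classical
  have hdu := hdeg u hcu
  have hdw := hdeg w hcw
  rw [Fin.sum_univ_succ, Finset.sum_eq_zero (fun i _ => hu.1 i), add_zero] at hdu
  rw [Fin.sum_univ_succ, Finset.sum_eq_zero (fun i _ => hw.1 i), add_zero] at hdw
  have hempty : ∀ x : Fin (k + 1) × Option (Fin n) →₀ ℕ, ∀ p : Lt k, sz p = 0 →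
      (Finset.univ.filter fun j : Fin n => lt x j = p).card + Fh (fun _ => 1) (ct x) = n := by
    intro x p hp
    rw [Fh_ct]
    have h1 : ∀ j : Fin n, lt x j = p ↔ cs x (some j) = 0 := by
      intro j
      constructor
      · intro e
        rw [← sz_lt, e, hp]
      · intro e
        have hp1 : p.1 = 0 := by
          unfold sz at hp
          omega
        have hp2 : ∀ i, p.2 i = 0 := by
          intro i
          have h2 : ∑ i, p.2 i = 0 := by
            unfold sz at hp
            omega
          exact (Finset.sum_eq_zero_iff.1 h2) i (Finset.mem_univ i)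
        refine Prod.ext ?_ ?_
        · rw [hp1]
          exact entry_zero e 0
        · funext i
          rw [hp2 i]
          exact entry_zero e i.succ
    simp only [h1]
    have h2 : (∑ j : Fin n, if cs x (some j) = 0 then 0 else 1) =
        (Finset.univ.filter fun j : Fin n => ¬ cs x (some j) = 0).card := by
      rw [Finset.card_filter]
      apply Finset.sum_congr rfl
      intro j _
      by_cases hj : cs x (some j) = 0
      · rw [if_pos hj, if_neg (not_not.2 hj)]
      · rw [if_neg hj, if_pos hj]
    rw [h2, Finset.card_filter_add_card_filter_not, Finset.card_univ, Fintype.card_fin]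
  have hc : ∀ p : Lt k, Fintype.card {c : Fin n // lt u c = p} =
      Fintype.card {c : Fin n // lt w c = p} := by
    intro p
    rw [Fintype.card_subtype, Fintype.card_subtype]
    by_cases hp : sz p = 0
    · have h1 := hempty u p hp
      have h2 := hempty w p hp
      rw [h] at h1
      omega
    · rw [← ct_apply u p hp, ← ct_apply w p hp, h]
  let e : Equiv.Perm (Fin n) := Equiv.ofFiberEquiv (f := lt u) (g := lt w)
    fun p => Fintype.equivOfCardEq (hc p)
  have he : ∀ c, lt w (e c) = lt u c := fun c => Equiv.ofFiberEquiv_map _ c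
  have hinj : Function.Injective (fun p : Fin (k + 1) × Option (Fin n) => (p.1, p.2.map e)) := by
    intro p q hpq
    simp only [Prod.mk.injEq] at hpq
    exact Prod.ext hpq.1 (Option.map_injective e.injective hpq.2)
  have h2 : u.mapDomain (fun p : Fin (k + 1) × Option (Fin n) => (p.1, p.2.map e)) = w := by
    ext ⟨i, c⟩
    rcases c with _ | c
    · have h3 := Finsupp.mapDomain_apply hinj u (i, none)
      change _ = u (i, none) at h3
      change u.mapDomain (fun p : Fin (k + 1) × Option (Fin n) => (p.1, p.2.map e)) (i, none) = _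
      rw [show ((i, none) : Fin (k + 1) × Option (Fin n)) =
        (fun p : Fin (k + 1) × Option (Fin n) => (p.1, p.2.map e)) (i, none) from rfl, h3]
      refine Fin.cases ?_ (fun i' => ?_) i
      · rw [hdu]
        exact hdw.symm
      · rw [hu.1 i']
        exact (hw.1 i').symm
    · obtain ⟨c', rfl⟩ := e.surjective c
      have h3 := Finsupp.mapDomain_apply hinj u (i, some c')
      rw [show ((i, some (e c')) : Fin (k + 1) × Option (Fin n)) =
        (fun p : Fin (k + 1) × Option (Fin n) => (p.1, p.2.map e)) (i, some c') from rfl, h3]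
      have h4 := he c'
      refine Fin.cases ?_ (fun i' => ?_) i
      · exact (congrArg Prod.fst h4).symm
      · exact (congrFun (congrArg Prod.snd h4) i').symm
  calc coeff u f = coeff (u.mapDomain (fun p : Fin (k + 1) × Option (Fin n) =>
        (p.1, p.2.map e))) (rename (fun p : Fin (k + 1) × Option (Fin n) =>
          (p.1, p.2.map e)) f) := (coeff_rename_mapDomain _ hinj _ _).symm
    _ = coeff w f := by rw [h2, hsym e]

/-- Columns of degree one, with a spectator column. -/
theorem one_zero' (f : MvPolynomial (Fin (k + 1) × Option (Fin n)) ℂ)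
    (hsym : ∀ e : Equiv.Perm (Fin n),
        rename (fun p : Fin (k + 1) × Option (Fin n) => (p.1, p.2.map e)) f = f)
    (ht : ∀ i, ∑ j : Fin n, pderiv (i, some j) f = 0)
    (h0 : ∀ v : Fin (k + 1) × Option (Fin n) →₀ ℕ, good v → coeff v f = 0) :
    ∀ v : Fin (k + 1) × Option (Fin n) →₀ ℕ, (∀ i : Fin k, v (i.succ, none) = 0) →
      coeff v f = 0 := by
  classical
  have hsw : ∀ (e : Equiv.Perm (Fin n)) (v : Fin (k + 1) × Option (Fin n) →₀ ℕ),
      coeff (v.mapDomain (fun p : Fin (k + 1) × Option (Fin n) => (p.1, p.2.map e))) f =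
        coeff v f := by
    intro e v
    have hinj : Function.Injective
        (fun p : Fin (k + 1) × Option (Fin n) => (p.1, p.2.map e)) := by
      intro p q hpq
      simp only [Prod.mk.injEq] at hpq
      exact Prod.ext hpq.1 (Option.map_injective e.injective hpq.2)
    conv_lhs => rw [← hsym e]
    exact coeff_rename_mapDomain _ hinj _ _
  have main : ∀ (s : ℕ) (v : Fin (k + 1) × Option (Fin n) →₀ ℕ),
      (∀ i : Fin k, v (i.succ, none) = 0) →
      (Finset.univ.filter (fun j : Fin n => cs v (some j) = 1)).card = s → coeff v f = 0 := by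
    intro s
    induction s using Nat.strong_induction_on with
    | _ s ih =>
      intro v hvn hv
      by_cases hall : ∀ j : Fin n, cs v (some j) ≠ 1
      · exact h0 v ⟨hvn, hall⟩
      push Not at hall
      obtain ⟨c, hc⟩ := hall
      obtain ⟨i, hi⟩ : ∃ i, v (i, some c) ≠ 0 := by
        by_contra hcon
        push Not at hcon
        unfold cs at hc
        rw [Finset.sum_eq_zero (fun i _ => hcon i)] at hc
        omega
      obtain ⟨w, hwdef⟩ : ∃ w, w = v - Finsupp.single (i, some c) 1 := ⟨_, rfl⟩
      have hw : w + Finsupp.single (i, some c) 1 = v := by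
        rw [hwdef]
        exact sub_add_single v (i, some c) hi
      have hcsadd : ∀ j j' : Fin n, cs (w + Finsupp.single (i, some j) 1) (some j') =
          cs w (some j') + if j' = j then 1 else 0 := by
        intro j j'
        rw [cs_add, cs_single]
        simp only [Option.some_inj]
      have hvc : ∀ j', cs v (some j') = cs w (some j') + if j' = c then 1 else 0 := by
        intro j'
        rw [← hw]
        exact hcsadd c j'
      have hwc : cs w (some c) = 0 := by
        have := hvc c
        rw [if_pos rfl, hc] at this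
        omega
      have hwn : ∀ (j : Fin n) (i' : Fin k),
          (w + Finsupp.single (i, some j) 1 : Fin (k + 1) × Option (Fin n) →₀ ℕ)
            (i'.succ, none) = 0 := by
        intro j i'
        have h1 := hvn i'
        rw [← hw, Finsupp.add_apply] at h1
        rw [Finsupp.add_apply, Finsupp.single_eq_of_ne (by simp)]
        omega
      have h1 : coeff w (∑ j : Fin n, pderiv (i, some j) f) = 0 := by rw [ht i, coeff_zero]
      rw [coeff_sum] at h1
      have h2 : ∀ j : Fin n, coeff w (pderiv (i, some j) f) =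
          if cs w (some j) = 0 then coeff v f else 0 := by
        intro j
        rw [coeff_pderiv]
        by_cases hj : cs w (some j) = 0
        · rw [if_pos hj]
          have hz : ∀ k, w (k, some j) = 0 := fun k =>
            (Finset.sum_eq_zero_iff.1 hj) k (Finset.mem_univ k)
          have hz' : ∀ k, w (k, some c) = 0 := fun k =>
            (Finset.sum_eq_zero_iff.1 hwc) k (Finset.mem_univ k)
          rw [hz i, Nat.cast_zero, zero_add, mul_one]
          rw [← hsw (Equiv.swap j c) (w + Finsupp.single (i, some j) 1)]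
          congr 1
          rw [Finsupp.mapDomain_add, Finsupp.mapDomain_single]
          simp only [Option.map_some, Equiv.swap_apply_left]
          rw [← hw]
          congr 1
          have hfix : ∀ p ∈ w.support,
              ((p.1, p.2.map (Equiv.swap j c)) : Fin (k + 1) × Option (Fin n)) = p := by
            rintro ⟨p1, p2⟩ hp
            have hp' := Finsupp.mem_support_iff.1 hp
            rcases p2 with _ | p2
            · rfl
            · have e1 : p2 ≠ j := by
                intro e
                apply hp'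
                rw [e]
                exact hz p1
              have e2 : p2 ≠ c := by
                intro e
                apply hp'
                rw [e]
                exact hz' p1
              simp only [Option.map_some, Equiv.swap_apply_of_ne_of_ne e1 e2]
          rw [Finsupp.mapDomain_congr (g := id) (fun p hp => hfix p hp), Finsupp.mapDomain_id]
        · rw [if_neg hj]
          have hlt : (Finset.univ.filter
              (fun j' : Fin n => cs (w + Finsupp.single (i, some j) 1) (some j') = 1)).card <
              s := by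
            rw [← hv]
            apply Finset.card_lt_card
            rw [Finset.ssubset_iff_of_subset]
            · refine ⟨c, ?_, ?_⟩
              · simp [hc]
              · simp only [Finset.mem_filter, Finset.mem_univ, true_and]
                rw [hcsadd, hwc]
                by_cases hcj : c = j
                · subst hcj
                  exact absurd hwc hj
                · rw [if_neg hcj]
                  omega
            · intro j' hj'
              simp only [Finset.mem_filter, Finset.mem_univ, true_and] at hj' ⊢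
              rw [hcsadd] at hj'
              rw [hvc]
              by_cases h3 : j' = j
              · rw [if_pos h3] at hj'
                exfalso
                apply hj
                rw [← h3]
                omega
              · rw [if_neg h3] at hj'
                by_cases h4 : j' = c
                · rw [h4, hwc] at hj'
                  omega
                · rw [if_neg h4]
                  exact hj'
          rw [ih _ hlt _ (hwn j) rfl, zero_mul]
      rw [Finset.sum_congr rfl (fun j _ => h2 j), Finset.sum_ite, Finset.sum_const_zero, add_zero,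
        Finset.sum_const, nsmul_eq_mul] at h1
      refine (mul_eq_zero.1 h1).resolve_left (Nat.cast_ne_zero.2 ?_)
      apply Finset.card_ne_zero_of_mem (a := c)
      simp [hwc]
  intro v hv
  exact main _ v hv rfl

lemma L0_inj {y m0 : ℕ} {tau : Fin k → ℕ} {f : MvPolynomial (Fin (k + 1) × Option (Fin n)) ℂ}
    (hf : f ∈ PX (k + 1) y n (Fin.cons m0 tau)) (h : L0 k n f = 0) : f = 0 := by
  classical
  obtain ⟨hHW, hdeg, hsym, htr⟩ := mem_PX.1 hf
  apply top_zero none f
  · intro i
    exact hHW.2 0 i.succ (Fin.succ_pos i)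
  apply one_zero' f hsym htr
  intro w hw
  by_contra hcw
  have h1 : coeff (ct w) (L0 k n f) = 0 := by rw [h, coeff_zero]
  rw [coeff_L0, ← Finset.sum_filter] at h1
  rw [Finset.sum_congr rfl (fun u hu => coeff_eq hdeg hsym (Finset.mem_filter.1 hu).2.1 hw
    (mem_support_iff.1 (Finset.mem_filter.1 hu).1) hcw (Finset.mem_filter.1 hu).2.2),
    Finset.sum_const, nsmul_eq_mul] at h1
  refine hcw ((mul_eq_zero.1 h1).resolve_left (Nat.cast_ne_zero.2 ?_))
  apply Finset.card_ne_zero_of_mem (a := w)
  rw [Finset.mem_filter, mem_support_iff]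
  exact ⟨hcw, hw, rfl⟩

/-! ### finite dimension -/

lemma fd_UH (P : (Lt k →₀ ℕ) → Prop) (S : Finset (Lt k →₀ ℕ)) (hS : ∀ v, P v → v ∈ S) :
    FiniteDimensional ℂ (UH P) := by
  let L : UH P →ₗ[ℂ] (S → ℂ) :=
    { toFun := fun f u => coeff u.1 f.1
      map_add' := fun f g => by funext u; exact coeff_add _ _ _
      map_smul' := fun c f => by funext u; exact coeff_smul _ _ _ }
  have hL : Function.Injective L := by
    rw [← LinearMap.ker_eq_bot, LinearMap.ker_eq_bot']
    intro f hf
    apply Subtype.ext
    apply MvPolynomial.ext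
    intro v
    rw [ZeroMemClass.coe_zero, coeff_zero]
    by_contra hv
    exact hv (congrFun hf ⟨v, hS v (f.2.1 v hv)⟩)
  exact FiniteDimensional.of_injective L hL

/-- A finite set containing all exponents without empty letter and of degree at most `N`. -/
lemma exists_fin (k N : ℕ) : ∃ S : Finset (Lt k →₀ ℕ), ∀ v : Lt k →₀ ℕ,
    (∀ p ∈ v.support, 1 ≤ sz p) → Fh sz v ≤ N → v ∈ S := by
  classical
  refine ⟨Finset.finsupp ((Finset.range (N + 1)) ×ˢ
    (Fintype.piFinset fun _ : Fin k => Finset.range (N + 1))) (fun _ => Finset.range (N + 1)), ?_⟩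
  intro v hv hN
  have h1 : ∀ p ∈ v.support, v p * sz p ≤ N := by
    intro p hp
    refine le_trans ?_ hN
    exact Finset.single_le_sum (f := fun p => v p * sz p) (fun _ _ => Nat.zero_le _) hp
  have h2 : ∀ p ∈ v.support, v p ≤ N ∧ sz p ≤ N := by
    intro p hp
    have h3 := h1 p hp
    have h4 := hv p hp
    have h5 : 1 ≤ v p := Nat.one_le_iff_ne_zero.2 (Finsupp.mem_support_iff.1 hp)
    constructor
    · nlinarith
    · nlinarith
  rw [Finset.mem_finsupp_iff]
  constructor
  · intro p hp
    have h3 := (h2 p hp).2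
    rw [Finset.mem_product, Finset.mem_range, Fintype.mem_piFinset]
    unfold sz at h3
    refine ⟨by omega, fun i => ?_⟩
    rw [Finset.mem_range]
    have h4 : p.2 i ≤ ∑ i, p.2 i :=
      Finset.single_le_sum (fun _ _ => Nat.zero_le _) (Finset.mem_univ i)
    omega
  · intro p _
    rw [Finset.mem_range]
    by_cases hp : p ∈ v.support
    · have := (h2 p hp).1
      omega
    · rw [Finsupp.notMem_support_iff.1 hp]
      omega

lemma Fh_sz (v : Lt k →₀ ℕ) : Fh sz v = xs v + ∑ i, us v i := by
  unfold xs us
  change v.sum (fun p c => c * sz p) = _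
  simp only [Finsupp.sum]
  rw [Finset.sum_comm, ← Finset.sum_add_distrib]
  apply Finset.sum_congr rfl
  intro p _
  rw [sz, mul_add, Finset.mul_sum]

theorem fd_TT (k y m0 : ℕ) (tau : Fin k → ℕ) : FiniteDimensional ℂ (UH (gTT tau y m0)) := by
  obtain ⟨S, hS⟩ := exists_fin k (m0 + ∑ i, tau i)
  apply fd_UH _ S
  rintro v ⟨h1, h2, h3⟩
  apply hS v (fun p hp => by have := h1 p hp; omega)
  have h4 : ∑ i, us v i = ∑ i, tau i := Finset.sum_congr rfl (fun i _ => h3 i)
  rw [Fh_sz, h4]
  omega

theorem fd_EL (k : ℕ) (tau : Fin k → ℕ) (z : ℤ) : FiniteDimensional ℂ (UH (gEL tau z)) := by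
  obtain ⟨S, hS⟩ := exists_fin k (z.toNat + ∑ i, tau i)
  apply fd_UH _ S
  rintro v ⟨h1, h2, h3⟩
  apply hS v h1
  have h4 : ∑ i, us v i = ∑ i, tau i := Finset.sum_congr rfl (fun i _ => h3 i)
  rw [Fh_sz, h4]
  omega

/-- **[Q4]** -/
theorem q4 : Q4 := by
  intro k n y m0 tau
  have _fd := fd_TT k y m0 tau
  let L : PX (k + 1) y n (Fin.cons m0 tau) →ₗ[ℂ] UH (gTT tau y m0) :=
    LinearMap.restrict (L0 k n) (fun f hf => L0_mem hf)
  have hL : Function.Injective L := by
    rw [← LinearMap.ker_eq_bot, LinearMap.ker_eq_bot']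
    intro f hf
    apply Subtype.ext
    apply L0_inj f.2
    have h1 := congrArg Subtype.val hf
    exact h1
  exact LinearMap.finrank_le_finrank_of_injective hL

end Vale.Agent.P181.GN.H312
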